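import Vale.Agent.P042.R2.H757.Spec

set_option autoImplicit false

/-! P042.MultiplicativeStatistics, row SMALL (helper117). -/

namespace Vale.Agent.P042.H117

open Finset Filter Vale.Agent.P042.H757

theorem rowSmall : StSmall := by
  intro k hk r col v hR
  obtain ⟨c, hc, x0, hx⟩ := hR
  have hk0 : (0 : ℝ) < k := by
    have : 0 < k := by omega
    exact_mod_cast this
  set θ : ℝ := 1 / (2 * k : ℝ) with hθ
  have hθ0 : 0 < θ := by positivity
  have hL : Tendsto (fun N : ℕ => Real.log N) atTop atTop :=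
    Real.tendsto_log_atTop.comp tendsto_natCast_atTop_atTop
  have hy : Tendsto (fun N : ℕ => (Real.log N) ^ (1 + θ)) atTop atTop :=
    (tendsto_rpow_atTop (by positivity)).comp hL
  have hfl : Tendsto (fun N : ℕ => ⌊(Real.log N) ^ (1 + θ)⌋₊) atTop atTop :=
    tendsto_nat_floor_atTop.comp hy
  set η : ℝ := θ / (2 * (1 + θ)) with hη
  have hη0 : 0 < η := by positivity
  have hη1 : η < 1 := by
    rw [hη, div_lt_one (by positivity)]
    linarith
  have h1 : ∀ᶠ t : ℝ in atTop, t ^ c ≤ η * t := by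
    have h := (tendsto_rpow_atTop (show (0 : ℝ) < 1 - c by linarith)).eventually_ge_atTop (1 / η)
    filter_upwards [h, eventually_gt_atTop (0 : ℝ)] with t ht ht0
    have e : t = t ^ c * t ^ (1 - c) := by
      rw [← Real.rpow_add ht0, add_sub_cancel, Real.rpow_one]
    have h0 : 0 ≤ t ^ c := Real.rpow_nonneg ht0.le _
    have h1 : t ^ c * (1 / η) ≤ t := by
      conv_rhs => rw [e]
      exact mul_le_mul_of_nonneg_left ht h0
    rw [mul_one_div, div_le_iff₀ hη0] at h1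
    linarith
  have h2 : ∀ᶠ x : ℕ in atTop, (Real.log x) ^ c ≤ η * Real.log x := hL.eventually h1
  have h3 := hfl.eventually (h2.and (eventually_ge_atTop x0))
  have h4 : ∀ᶠ t : ℝ in atTop, 6 < t ^ (θ / 2) :=
    (tendsto_rpow_atTop (half_pos hθ0)).eventually_gt_atTop 6
  have h5 := hL.eventually (h4.and (eventually_gt_atTop (1 : ℝ)))
  obtain ⟨N0, hN0⟩ := eventually_atTop.1 (h3.and h5)
  refine ⟨N0, fun N hN => ?_⟩
  obtain ⟨⟨ha, hb⟩, h6, hL1⟩ := hN0 N hN
  set L : ℝ := Real.log N with hLd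
  set y : ℝ := L ^ (1 + θ) with hyd
  have hL0 : 0 < L := by linarith
  have hy2 : 2 ≤ y := by
    have e : y = L * (L ^ (θ / 2) * L ^ (θ / 2)) := by
      rw [hyd, Real.rpow_add hL0, Real.rpow_one, ← Real.rpow_add hL0]
      congr 2; ring
    rw [e]
    nlinarith
  have hy0 : 0 < y := by linarith
  have hxy : y / 2 ≤ (⌊y⌋₊ : ℝ) := by
    have := Nat.lt_floor_add_one y
    linarith
  have hx0 : (0 : ℝ) < (⌊y⌋₊ : ℝ) := by linarith
  have h7 := hx ⌊y⌋₊ hb
  have h8 : (⌊y⌋₊ : ℝ) ^ (1 - η) ≤ (⌊y⌋₊ : ℝ) * Real.exp (-(Real.log ⌊y⌋₊) ^ c) := by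
    rw [sub_eq_add_neg, Real.rpow_add hx0, Real.rpow_one]
    refine mul_le_mul_of_nonneg_left ?_ hx0.le
    rw [Real.rpow_def_of_pos hx0]
    refine Real.exp_le_exp.2 ?_
    have : Real.log ⌊y⌋₊ * -η = -(η * Real.log ⌊y⌋₊) := by ring
    rw [this]
    exact neg_le_neg ha
  have h9 : L ^ (1 + θ / 2) / 2 ≤ (⌊y⌋₊ : ℝ) ^ (1 - η) := by
    have e1 : y ^ (1 - η) = L ^ (1 + θ / 2) := by
      rw [hyd, ← Real.rpow_mul hL0.le]
      congr 1
      rw [hη]; field_simp; ring
    have e2 : (y / 2) ^ (1 - η) ≤ (⌊y⌋₊ : ℝ) ^ (1 - η) :=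
      Real.rpow_le_rpow (by positivity) hxy (by linarith)
    refine le_trans ?_ e2
    rw [Real.div_rpow hy0.le (by norm_num), e1]
    refine div_le_div_of_nonneg_left (by positivity) (by positivity) ?_
    calc (2 : ℝ) ^ (1 - η) ≤ 2 ^ (1 : ℝ) :=
          Real.rpow_le_rpow_of_exponent_le (by norm_num) (by linarith)
      _ = 2 := Real.rpow_one 2
  have h10 : 3 * L < L ^ (1 + θ / 2) / 2 := by
    rw [Real.rpow_add hL0, Real.rpow_one]
    nlinarith
  have hNpos : 0 < N := by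
    rcases Nat.eq_zero_or_pos N with h | h
    · rw [h] at hLd
      simp only [Nat.cast_zero, Real.log_zero] at hLd
      linarith
    · exact h
  have h11 : (Nat.log 2 N : ℝ) * Real.log 2 ≤ L := by
    have e : ((2 ^ Nat.log 2 N : ℕ) : ℝ) ≤ N := by
      exact_mod_cast Nat.pow_log_le_self 2 hNpos.ne'
    have e2 := Real.log_le_log (by positivity) e
    rw [Nat.cast_pow, Real.log_pow] at e2
    exact_mod_cast e2
  have h12 : (Nat.log 2 N : ℝ) + 1 < 3 * L := by
    have h13 : (1 / 2 : ℝ) < Real.log 2 := by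
      have := Real.log_two_gt_d9; linarith
    have h14 : (0 : ℝ) ≤ Nat.log 2 N := Nat.cast_nonneg _
    nlinarith
  have h15 : ((Nat.log 2 N + 1 : ℕ) : ℝ) <
      (((Icc 1 ⌊y⌋₊).filter (fun p => p.Prime ∧ col p = v)).card : ℝ) := by
    rw [Nat.cast_add, Nat.cast_one]
    linarith
  exact_mod_cast h15

end Vale.Agent.P042.H117
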