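import Vale.Agent.P042.R2.H757.Spec

set_option autoImplicit false

/-! P042.MultiplicativeStatistics, row SMOOTH (helper117). -/

namespace Vale.Agent.P042.H117

open Finset Vale.Agent.P042.H757

theorem rowSmooth : StSmooth := by
  intro Q N A hA hp
  classical
  have hbound : ∀ n ∈ A, ∀ p, n.factorization p < Nat.log 2 N + 1 := by
    intro n hn p
    have hn1 := Finset.mem_Icc.1 (hA hn)
    by_cases hpp : p.Prime
    · have h1 : 2 ^ n.factorization p ≤ N :=
        (Nat.pow_le_pow_left hpp.two_le _).trans
          ((Nat.ordProj_le p (by omega)).trans hn1.2)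
      have : n.factorization p ≤ Nat.log 2 N := Nat.le_log_of_pow_le (by norm_num) h1
      omega
    · rw [Nat.factorization_eq_zero_of_not_prime _ hpp]; omega
  have h1 : A.card ≤
      (Fintype.piFinset (fun _ : Fin Q => Finset.range (Nat.log 2 N + 1))).card := by
    refine Finset.card_le_card_of_injOn
      (fun n => fun i : Fin Q => n.factorization ((i : ℕ) + 1)) ?_ ?_
    · intro n hn
      simp only [Finset.mem_coe, Fintype.mem_piFinset, Finset.mem_range]
      intro i
      exact hbound n hn _
    · intro n hn m hm hnm
      have hn1 := Finset.mem_Icc.1 (hA hn)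
      have hm1 := Finset.mem_Icc.1 (hA hm)
      refine Nat.eq_of_factorization_eq (by omega) (by omega) fun p => ?_
      by_cases hpp : p.Prime
      · by_cases hpQ : p ≤ Q
        · have h2 := congrFun hnm ⟨p - 1, by have := hpp.pos; omega⟩
          have h3 : p - 1 + 1 = p := Nat.sub_add_cancel hpp.pos
          simp only [h3] at h2
          exact h2
        · rw [Nat.factorization_eq_zero_of_not_dvd (fun h => hpQ (hp n hn p hpp h)),
            Nat.factorization_eq_zero_of_not_dvd (fun h => hpQ (hp m hm p hpp h))]
      · rw [Nat.factorization_eq_zero_of_not_prime _ hpp,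
          Nat.factorization_eq_zero_of_not_prime _ hpp]
  refine h1.trans_eq ?_
  rw [Fintype.card_piFinset_const, Finset.card_range]

end Vale.Agent.P042.H117
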